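import Vale.Agent.P233G30.Rows

/-! P233G: first order facts that follow from the axioms of the tangent module. -/

set_option linter.all false

open MeasureTheory Filter Topology Set
open scoped ENNReal NNReal InnerProductSpace

universe u

namespace Vale.Agent.P233G39

open Vale.Agent.P233 Vale.Agent.P233G

variable {M : Type u} [MetricSpace M] [MeasurableSpace M]
  {U : Measure M → (M → ℝ) → (M → ℝ) → Prop} {m : Measure M}
  {H : Type u} [NormedAddCommGroup H] [InnerProductSpace ℝ H]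

/-- the class of an indicator function -/
theorem exists_ind {s : Set M} (hs : MeasurableSet s) :
    ∃ a : L0 m, MemLp a ∞ m ∧ ∀ᵐ x ∂m, a x = s.indicator (fun _ => (1 : ℝ)) x := by
  have h1 : AEStronglyMeasurable (s.indicator fun _ => (1 : ℝ)) m :=
    aestronglyMeasurable_const.indicator hs
  refine ⟨AEEqFun.mk _ h1, ?_, AEEqFun.coeFn_mk _ h1⟩
  exact (memLp_congr_ae (AEEqFun.coeFn_mk _ h1)).2 ((memLp_top_const (1 : ℝ)).indicator hs)

/-- the integral of `⟨X,Y⟩` over a set is an inner product with `Y` -/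
theorem set_ip (T : Tan U m H) {s : Set M} (hs : MeasurableSet s) (X : H) :
    ∃ V : H, ∀ Y, ∫ x in s, T.ip Y X x ∂m = ⟪V, Y⟫_ℝ := by
  obtain ⟨a, ha, hae⟩ := exists_ind (m := m) hs
  refine ⟨T.sm a X, fun Y => ?_⟩
  rw [(T.int _ _).2, T.ip_sm a ha, T.symm Y X, ← integral_indicator hs]
  refine integral_congr_ae ?_
  filter_upwards [hae, AEEqFun.coeFn_mul a (T.ip X Y)] with x h1 h2
  rw [h2, Pi.mul_apply, h1]
  by_cases hx : x ∈ s
  · simp [hx]
  · simp [hx]

theorem ip_add (T : Tan U m H) (X X' Y : H) : T.ip (X + X') Y = T.ip X Y + T.ip X' Y := by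
  have i1 := (T.int X Y).1
  have i2 := (T.int X' Y).1
  have h : (T.ip (X + X') Y : M → ℝ) =ᵐ[m] fun x => T.ip X Y x + T.ip X' Y x := by
    refine Integrable.ae_eq_of_forall_setIntegral_eq _ _ (T.int _ _).1 (i1.add i2)
      fun s hs _ => ?_
    obtain ⟨V, hV⟩ := set_ip T hs Y
    rw [integral_add i1.integrableOn i2.integrableOn, hV, hV, hV, inner_add_right]
  refine AEEqFun.ext ?_
  filter_upwards [h, AEEqFun.coeFn_add (T.ip X Y) (T.ip X' Y)] with x h1 h2
  rw [h1, h2, Pi.add_apply]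

theorem ip_smul (T : Tan U m H) (c : ℝ) (X Y : H) : T.ip (c • X) Y = c • T.ip X Y := by
  have i1 := (T.int X Y).1
  have h : (T.ip (c • X) Y : M → ℝ) =ᵐ[m] fun x => c * T.ip X Y x := by
    refine Integrable.ae_eq_of_forall_setIntegral_eq _ _ (T.int _ _).1 (i1.const_mul c)
      fun s hs _ => ?_
    obtain ⟨V, hV⟩ := set_ip T hs Y
    rw [integral_const_mul, hV, hV, real_inner_smul_right]
  refine AEEqFun.ext ?_
  filter_upwards [h, AEEqFun.coeFn_smul c (T.ip X Y)] with x h1 h2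
  rw [h1, h2, Pi.smul_apply, smul_eq_mul]

/-- polarization -/
theorem ip_pol (T : Tan U m H) (X Y : H) :
    T.ip X Y = (4 : ℝ)⁻¹ • (T.ip (X + (1 : ℝ) • Y) (X + (1 : ℝ) • Y)
      - T.ip (X + (-1 : ℝ) • Y) (X + (-1 : ℝ) • Y)) := by
  have e : ∀ c : ℝ, T.ip (X + c • Y) (X + c • Y) =
      T.ip X X + c • T.ip X Y + c • (T.ip X Y + c • T.ip Y Y) := by
    intro c
    rw [ip_add, ip_smul, T.symm X (X + c • Y), T.symm Y (X + c • Y), ip_add, ip_add, ip_smul,
      ip_smul, T.symm Y X]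
  rw [e, e]
  module

theorem w_iff (hU : ∀ f G, U m f G ↔ T.IsRelaxedSlope m f G) (f : L0 m) :
    W U m f ↔ f ∈ (sob m).W := by
  rw [mem_sob_iff]
  exact ⟨fun ⟨G, hG⟩ => ⟨G, (hU _ _).1 hG⟩, fun ⟨G, hG⟩ => ⟨G, (hU _ _).2 hG⟩⟩

theorem ip_self [BorelSpace M] (hU : ∀ f G, U m f G ↔ T.IsRelaxedSlope m f G) (T : Tan U m H)
    {f : L0 m} (hf : f ∈ (sob m).W) : T.ip (T.grad f) (T.grad f) = slope f ^ 2 := by
  have h := isMinSlope_iff.1 (exists_minSlope' hf)
  have h1 : P242W.IsMin U m f (slope f) :=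
    ⟨(hU _ _).2 h.1, fun G hG => h.2 G ((hU _ _).1 hG)⟩
  refine AEEqFun.ext ?_
  filter_upwards [T.norm f _ h1, sq_ae (slope f)] with x h2 h3
  rw [h2, h3]

theorem ba : BA.{u} := by
  intro M _ _ _ _ U m κ Gr hc H _ _ T
  refine ⟨w_iff hc.hU, ip_add T, ip_smul T, fun f hf g hg => ?_⟩
  have hf' := (w_iff hc.hU f).2 hf
  have hg' := (w_iff hc.hU g).2 hg
  have e : (sob m).Γ f g = (4 : ℝ)⁻¹ • (slope (f + g) ^ 2 - slope (f - g) ^ 2) := rfl
  have e1 : f + (1 : ℝ) • g = f + g := by rw [one_smul]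
  have e2 : f + (-1 : ℝ) • g = f - g := by rw [neg_one_smul, sub_eq_add_neg]
  rw [e, ip_pol, ← T.lin f g hf' hg', ← T.lin f g hf' hg', e1, e2,
    ip_self hc.hU T (sob_add_mem hf hg), ip_self hc.hU T (sob_sub_mem hf hg)]

end Vale.Agent.P233G39
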