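import Vale.Agent.P233G30.Rows
import Vale.Agent.P233Z.BFin
import Vale.Agent.P233Z.Model
import Vale.Agent.P242W.AGS
import Vale.Agent.P242W47.Spm
import Vale.Agent.P242W55.Ugl
import Vale.Agent.P242W72.Rows
import Vale.Agent.P242W76.New1

/-! P233G: the metric side. The two forms of the Cheeger energy agree, and an `RCD` space gives a
context. -/

set_option linter.all false

open MeasureTheory Filter Topology Set unitInterval
open scoped ENNReal NNReal InnerProductSpace MeasureTheory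

universe u

namespace Vale.Agent.P233G39

open Vale.Agent.P233 Vale.Agent.P233G Vale.Agent.P242W

variable {M : Type u} [MetricSpace M] [MeasurableSpace M] [BorelSpace M]
  {U : Measure M → (M → ℝ) → (M → ℝ) → Prop} {m : Measure M}

/-- the two forms of the Cheeger energy agree on `L²` -/
theorem ch_eq (hU : ∀ f G, U m f G ↔ T.IsRelaxedSlope m f G) {f : M → ℝ} (hf : MemLp f 2 m) :
    P242W.Ch U m f = P233Z.Ch m f := by
  by_cases h : (T.sob m).W f
  · obtain ⟨G, hG⟩ := id h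
    rw [P242W.ch_eq hU hG, P233Z.ch_eq h, div_eq_inv_mul, ENNReal.ofReal_mul (by norm_num),
      ENNReal.ofReal_inv_of_pos (by norm_num), ENNReal.ofReal_ofNat]
  · have h1 : P233Z.Ch m f = ∞ := by
      by_contra h2
      exact h (P233Z.w_iff_ch.2 ⟨hf, lt_top_iff_ne_top.2 h2⟩)
    rw [h1]
    refine top_le_iff.1 (le_iInf₂ fun G hG => ?_)
    exact absurd ⟨G, (hU _ _).1 hG.1⟩ h

omit [BorelSpace M] in
theorem fin_of_ball (h : ∀ (x : M) (r : ℝ), m (Metric.ball x r) < ∞) (B : Set M)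
    (hB : Bornology.IsBounded B) : m B < ∞ := by
  rcases B.eq_empty_or_nonempty with rfl | ⟨x, -⟩
  · simp
  · obtain ⟨r, hr⟩ := hB.subset_ball x
    exact (measure_mono hr).trans_lt (h x r)

theorem hilb_iff (hU : ∀ f G, U m f G ↔ T.IsRelaxedSlope m f G) :
    P233G.IsHilb U m ↔ P233Z.IsHilb m := by
  constructor
  · intro h
    refine ⟨h.ne, fun x r => h.fin _ Metric.isBounded_ball, h.full, fun f g hf hg => ?_⟩
    have := h.quadratic f g hf hg
    rwa [ch_eq hU hf, ch_eq hU hg, ch_eq hU (MemLp.add hf hg), ch_eq hU (MemLp.sub hf hg)] at this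
  · intro h
    refine ⟨h.ne, h.full, fin_of_ball h.fin, fun f g hf hg => ?_⟩
    rw [ch_eq hU hf, ch_eq hU hg, ch_eq hU (MemLp.add hf hg), ch_eq hU (MemLp.sub hf hg)]
    exact h.quadratic f g hf hg

omit [BorelSpace M] in
/-- the Eulerian form of `RCD` does not change when the measure is multiplied by a constant -/
theorem rcd_smul {c : ℝ≥0} (hc : c ≠ 0) {K N : ℝ} (h : T.IsRCD m K N) : T.IsRCD (c • m) K N := by
  have hc' : (0 : ℝ) < c := NNReal.coe_pos.2 (pos_iff_ne_zero.2 hc)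
  refine ⟨P233Z.quad_smul hc h.quadratic, ?_, ?_, ?_⟩
  · obtain ⟨x₀, a, ha⟩ := h.growth
    refine ⟨x₀, (c + 1) * |a|, fun r hr => ?_⟩
    have h0 := abs_nonneg a
    have h1 : a ≤ (c + 1) * |a| := by nlinarith [le_abs_self a]
    have h2 : Real.exp (a * r ^ 2) ≤ Real.exp ((c + 1) * |a| * r ^ 2) :=
      Real.exp_le_exp.2 (mul_le_mul_of_nonneg_right h1 (sq_nonneg r))
    have h3 := Real.exp_pos (a * r ^ 2)
    rw [Measure.smul_apply, ENNReal.smul_def, smul_eq_mul]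
    refine (mul_le_mul_right (ha r hr) _).trans ?_
    rw [← ENNReal.ofReal_coe_nnreal, ← ENNReal.ofReal_mul hc'.le]
    refine ENNReal.ofReal_le_ofReal ?_
    calc (c : ℝ) * (a * Real.exp (a * r ^ 2)) = c * a * Real.exp (a * r ^ 2) := by ring
      _ ≤ (c + 1) * |a| * Real.exp (a * r ^ 2) :=
        mul_le_mul_of_nonneg_right (by nlinarith [le_abs_self a]) h3.le
      _ ≤ _ := mul_le_mul_of_nonneg_left h2 (by positivity)
  · intro f hf h1
    rw [P233Z.sob_smul hc] at hf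
    rw [P233Z.slope_smul hc, P233Z.ae_smul_eq hc] at h1
    rw [P233Z.ae_smul_eq hc]
    exact h.sobolev_to_lipschitz f hf h1
  · rw [P233Z.sob_smul hc]
    intro f k φ ψ b h1 h2 h3 h4
    rw [P233Z.scl_isLap hc'] at h1 h3
    have h5 := mul_le_mul_of_nonneg_left (h.bochner f k φ ψ b h1 h2 h3 h4) hc'.le
    rw [← mul_div_assoc] at h5
    exact h5

variable [CompleteSpace M] [SecondCountableTopology M]

theorem ctx_of_rcd (hU : ∀ f G, U m f G ↔ T.IsRelaxedSlope m f G) {K N : ℝ} (hN : 0 < N)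
    (h : T.IsRCD m K N) : ∃ Gr, Ctx U m K Gr := by
  have hR := isRCD_of_S (T_rcd h)
  have hfin := ball_lt_top_of_growth hR.growth
  have hC : IsGamma (sob m) := isGamma_sob hfin hR.quadratic hR.sobolev_to_lipschitz
  have hsf : SigmaFinite m := sigmaFinite_of_ball hfin
  obtain ⟨Gr, hG, -⟩ := hC.toIsDir.exists_grad
  exact ⟨Gr, hC, hC.bei hN hR.bochner, hG, hsf, hU⟩

/-- an `RCD` space gives a context -/
theorem ctx {n : ℕ} (hn : 2 ≤ n) {c : ℝ≥0} (hc : c ≠ 0) (hm : m = c • μH[n])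
    (hU : ∀ f G, U m f G ↔ T.IsRelaxedSlope m f G) {K : ℝ} (h : P233Z.IsHilb m)
    (hcd : P242.IsCD K n m ∨ P233Z.IsCDb K n m) : ∃ Gr, Ctx U m K Gr := by
  subst hm
  have hN : (0 : ℝ) < n := by exact_mod_cast (by omega : 0 < n)
  exact ctx_of_rcd hU hN (rcd_smul hc
    (P233Z.isRCD_of_smul hn hc h.full (h.isRCDb (hcd.elim (h.isCDb hn) id))).2)

/-- the three notions of weak upper gradient are the relaxed slopes -/
theorem hU_of [MeasurableSpace C(I, M)] [BorelSpace C(I, M)]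
    (hU : U ∈ ({IsWeakUG, IsIntUG, IsNewtonUG} : Set (Measure M → (M → ℝ) → (M → ℝ) → Prop)))
    (hm : ∀ B, Bornology.IsBounded B → m B < ∞) (f G : M → ℝ) :
    U m f G ↔ T.IsRelaxedSlope m f G :=
  all_iff (P242W76.new1 P242W55.ugl P242W47.spm1) (P242W72.new2 M) (hard_side M) hU hm f G

/-- the calculus part -/
def CAL : Prop := ForC.{u} fun _ _ _ U m _ =>
  P233G.WellDef U m ∧ ∀ κ, (DistSec U m κ ↔ P233Z.DistSecAll (T.sob m) κ)

theorem wrap (hcal : CAL.{u}) (M : Type u) [MetricSpace M] [CompleteSpace M]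
    [SecondCountableTopology M] [MeasurableSpace M] [BorelSpace M] [MeasurableSpace C(I, M)]
    [BorelSpace C(I, M)] (n : ℕ) (hn : 2 ≤ n) (κ : ℝ) (c : ℝ≥0) (hc : c ≠ 0) (m : Measure M)
    (hm : m = c • μH[n]) (U : Measure M → (M → ℝ) → (M → ℝ) → Prop)
    (hU : U ∈ ({IsWeakUG, IsIntUG, IsNewtonUG} : Set (Measure M → (M → ℝ) → (M → ℝ) → Prop))) :
    ((P233G.IsHilb U m ∧ P242.IsCD ((n - 1) * κ) n m ∧ DistSec U m κ) ↔
      (P233Z.IsHilb m ∧ P242.IsCD ((n - 1) * κ) n m ∧ P233Z.DistSecAll (T.sob m) κ)) ∧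
    ((P233G.IsHilb U m ∧ P233Z.IsCDb ((n - 1) * κ) n m ∧ DistSec U m κ) ↔
      (P233Z.IsHilb m ∧ P233Z.IsCDb ((n - 1) * κ) n m ∧ P233Z.DistSecAll (T.sob m) κ)) ∧
    ∀ K, P233G.IsHilb U m → P242.IsCD K n m ∨ P233Z.IsCDb K n m → P233G.WellDef U m := by
  have hi : P233G.IsHilb U m ↔ P233Z.IsHilb m :=
    ⟨fun h => (hilb_iff (hU_of hU h.fin)).1 h,
      fun h => (hilb_iff (hU_of hU (fin_of_ball h.fin))).2 h⟩
  have key : ∀ K, P233Z.IsHilb m → P242.IsCD K n m ∨ P233Z.IsCDb K n m →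
      P233G.WellDef U m ∧ ∀ κ, (DistSec U m κ ↔ P233Z.DistSecAll (T.sob m) κ) := by
    intro K h hcd
    obtain ⟨Gr, hG⟩ := ctx hn hc hm (hU_of hU (fin_of_ball h.fin)) h hcd
    exact hcal M U m K Gr hG
  refine ⟨⟨fun h => ⟨hi.1 h.1, h.2.1, ((key _ (hi.1 h.1) (.inl h.2.1)).2 κ).1 h.2.2⟩,
    fun h => ⟨hi.2 h.1, h.2.1, ((key _ h.1 (.inl h.2.1)).2 κ).2 h.2.2⟩⟩,
    ⟨fun h => ⟨hi.1 h.1, h.2.1, ((key _ (hi.1 h.1) (.inr h.2.1)).2 κ).1 h.2.2⟩,
    fun h => ⟨hi.2 h.1, h.2.1, ((key _ h.1 (.inr h.2.1)).2 κ).2 h.2.2⟩⟩,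
    fun K h hcd => (key K (hi.1 h) hcd).1⟩

/-- the theorem with Gigli's own calculus, from the calculus part -/
theorem final_of (hcal : CAL.{u}) (M : Type u) [MetricSpace M] [CompleteSpace M]
    [SecondCountableTopology M] [MeasurableSpace M] [BorelSpace M] [MeasurableSpace C(I, M)]
    [BorelSpace C(I, M)] (n : ℕ) (hn : 2 ≤ n) (κ : ℝ) (c : ℝ≥0) (hc : c ≠ 0) (m : Measure M)
    (hm : m = c • μH[n]) (U : Measure M → (M → ℝ) → (M → ℝ) → Prop)
    (hU : U ∈ ({IsWeakUG, IsIntUG, IsNewtonUG} : Set (Measure M → (M → ℝ) → (M → ℝ) → Prop))) :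
    List.TFAE [
      P233Z.IsLength M ∧ dimH (univ : Set M) = n ∧ LocallyCompactSpace M ∧ P233Z.TriModel M κ,
      P233Z.IsLength M ∧ dimH (univ : Set M) = n ∧ ∀ o : M, ∃ V ∈ 𝓝 o,
        (∀ x ∈ V, ∀ y ∈ V, ∃ γ : ℝ → M, P233Z.IsSeg γ x y) ∧ P233Z.TriModel V κ,
      P233Z.IsLength M ∧ dimH (univ : Set M) = n ∧ P233Z.FourPoint M κ,
      P233Z.IsLength M ∧ dimH (univ : Set M) = n ∧ ∀ o : M, ∃ V ∈ 𝓝 o, P233Z.FourPoint V κ,
      P233Z.IsLength M ∧ dimH (univ : Set M) = n ∧ ProperSpace M ∧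
        (∀ x y : M, ∃ γ : ℝ → M, P233Z.IsSeg γ x y) ∧ P233Z.TriModel M κ,
      P233G.IsHilb U m ∧ P242.IsCD ((n - 1) * κ) n m ∧ DistSec U m κ,
      P233G.IsHilb U m ∧ P233Z.IsCDb ((n - 1) * κ) n m ∧ DistSec U m κ] ∧
    ∀ K, P233G.IsHilb U m → P242.IsCD K n m ∨ P233Z.IsCDb K n m → P233G.WellDef U m := by
  obtain ⟨h1, h2, h3⟩ := wrap hcal M n hn κ c hc m hm U hU
  refine ⟨?_, h3⟩
  rw [propext h1, propext h2]
  simp only [P233Z.triModel_iff]
  exact (P233Z.final M n hn κ c hc m hm).1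

end Vale.Agent.P233G39
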